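import Vale.Agent.P070.Scalar

/-!
# P070: counterexamples to Naimark's problem have trivial central sequences
-/

namespace Vale.Agent.Results.P070.CentralScalar

open Vale.Agent.P070

universe u

/-- In a C*-algebra with property (N) every bounded central sequence acts as a scalar along every
free ultrafilter; if unital, there are no asymptotically central matrix units of order two. -/
theorem result :
    (∀ (A : Type u) [NonUnitalCStarAlgebra A], HasN A → CentralSequencesScalar A) ∧
    (∀ (A : Type u) [CStarAlgebra A], HasN A → ¬ HasCentralMatrixUnits A) :=
  ⟨fun _ _ hN => central_scalar hN, fun _ _ hN => no_central_matrix_units hN⟩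

end Vale.Agent.Results.P070.CentralScalar
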