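import Vale.Agent.P070.Diagonal

/-!
# P070: property (N) and regular commutative subalgebras
-/

namespace Vale.Agent.Results.P070.RegularSubalgebra

open Vale.Agent.P070

universe u

/-- An algebra with property (N) having a closed commutative regular subalgebra with a nonzero
character of unique state extension is elementary. -/
theorem result (A : Type u) [NonUnitalCStarAlgebra A] (hN : HasN A)
    (D : NonUnitalStarSubalgebra ℂ A) (hclosed : IsClosed (D : Set A))
    (hcomm : ∀ x ∈ D, ∀ y ∈ D, x * y = y * x) (hreg : IsRegular D) (χ : D →⋆ₙₐ[ℂ] ℂ)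
    (hχ : ∃ d, χ d ≠ 0) (huniq : HasUniqueExtension χ) : IsElementary A :=
  DiagPoint.isElementary ⟨D, hclosed, hcomm, hreg, χ, hχ, huniq⟩ hN

end Vale.Agent.Results.P070.RegularSubalgebra
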